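import Vale.Agent.P272.K.AMP.Iface
import Vale.Agent.P272.K.C3.Cutoff

/-!
# The derivative of a real function against the `g`-gradient

`|dρ(v)| ≤ 2 |∂ρ|_g |v|_g`
-/

open scoped Manifold ContDiff ComplexOrder Topology Matrix
open Complex Set Filter

set_option linter.all false

noncomputable section

namespace Vale.Agent.P272.K.AMP.NF.H420

variable {n : ℕ}

lemma fderiv_ofReal_apply {f : Cm n → ℝ} {z : Cm n} (hf : DifferentiableAt ℝ f z) (v : Cm n) :
    fderiv ℝ (fun y => ((f y : ℝ) : ℂ)) z v = ((fderiv ℝ f z v : ℝ) : ℂ) := by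
  have h1 : HasFDerivAt (fun y => ((f y : ℝ) : ℂ)) (Complex.ofRealCLM.comp (fderiv ℝ f z)) z :=
    Complex.ofRealCLM.hasFDerivAt.comp z hf.hasFDerivAt
  rw [h1.fderiv]; rfl

/-- `df(v) = 2 Re Σ ∂_i f v_i` -/
lemma fderiv_eq_dz {f : Cm n → ℝ} {z : Cm n} (hf : DifferentiableAt ℝ f z) (v : Cm n) :
    fderiv ℝ f z v = 2 * (∑ i, dz i (fun y => ((f y : ℝ) : ℂ)) z * v i).re := by
  have h1 : v = ∑ i, ((v i).re • (Pi.single i (1 : ℂ) : Cm n) +
      (v i).im • (Pi.single i Complex.I : Cm n)) := by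
    funext j
    simp only [Finset.sum_apply, Pi.add_apply, Pi.smul_apply, Pi.single_apply]
    rw [Finset.sum_eq_single j]
    · simp only [if_true, Complex.real_smul, mul_one]
      exact (Complex.re_add_im (v j)).symm
    · intro b _ hb
      simp [hb.symm]
    · intro h; exact absurd (Finset.mem_univ j) h
  have h2 : fderiv ℝ f z v = ∑ i, ((v i).re * fderiv ℝ f z (Pi.single i (1 : ℂ) : Cm n) +
      (v i).im * fderiv ℝ f z (Pi.single i Complex.I : Cm n)) := by
    conv_lhs => rw [h1]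
    rw [map_sum]
    refine Finset.sum_congr rfl fun i _ => ?_
    rw [map_add, map_smul, map_smul, smul_eq_mul, smul_eq_mul]
  rw [h2, Complex.re_sum, Finset.mul_sum]
  refine Finset.sum_congr rfl fun i _ => ?_
  unfold dz
  rw [fderiv_ofReal_apply hf, fderiv_ofReal_apply hf]
  set a := fderiv ℝ f z (Pi.single i (1 : ℂ) : Cm n)
  set b := fderiv ℝ f z (Pi.single i Complex.I : Cm n)
  have h3 : ((a : ℂ) - Complex.I * b) / 2 * v i = (((a / 2 : ℝ) : ℂ) - Complex.I * ((b / 2 : ℝ) : ℂ)) * v i := by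
    push_cast; ring
  rw [h3]
  simp only [Complex.mul_re, Complex.sub_re, Complex.sub_im, Complex.ofReal_re, Complex.ofReal_im,
    Complex.I_re, Complex.I_im, Complex.mul_im]
  ring

/-- Cauchy-Schwarz in the form used below -/
lemma cs_pair {G : Matrix (Fin n) (Fin n) ℂ} (hG : G.PosDef) (p v : Fin n → ℂ) :
    (∑ i, p i * v i).re ^ 2 ≤ (C3.qf G⁻¹ p p).re * (quad G v).re := by
  set u : Fin n → ℂ := fun j => ∑ i, G i j * v i with hu
  have hdet : IsUnit G.det := hG.det_pos.ne'.isUnit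
  -- `v i = Σ_j u_j (G⁻¹)_{j i}`
  have hv : ∀ i, v i = ∑ j, u j * G⁻¹ j i := by
    intro i
    have h1 : (G * G⁻¹) = 1 := Matrix.mul_nonsing_inv _ hdet
    calc v i = ∑ k, v k * (1 : Matrix (Fin n) (Fin n) ℂ) k i := by
          simp [Matrix.one_apply]
      _ = ∑ k, v k * ∑ j, G k j * G⁻¹ j i := by
          rw [← h1]; simp only [Matrix.mul_apply]
      _ = ∑ j, u j * G⁻¹ j i := by
          simp only [Finset.mul_sum, hu, Finset.sum_mul]
          rw [Finset.sum_comm]
          refine Finset.sum_congr rfl fun j _ => Finset.sum_congr rfl fun k _ => ?_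
          ring
  have h1 : ∑ i, p i * v i = C3.qf G⁻¹ p (fun j => cj (u j)) := by
    unfold C3.qf
    refine Finset.sum_congr rfl fun i _ => ?_
    rw [hv i, Finset.mul_sum]
    refine Finset.sum_congr rfl fun j _ => ?_
    simp only [cj, Complex.conj_conj]
    ring
  have h2 : quad G v = C3.qf G⁻¹ (fun j => cj (u j)) (fun j => cj (u j)) := by
    have h3 : quad G v = ∑ j, u j * cj (v j) := by
      unfold quad
      rw [Finset.sum_comm]
      refine Finset.sum_congr rfl fun j _ => ?_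
      rw [hu]
      simp only [Finset.sum_mul]
      refine Finset.sum_congr rfl fun i _ => ?_
      ring
    rw [h3]
    unfold C3.qf
    rw [Finset.sum_comm]
    refine Finset.sum_congr rfl fun j _ => ?_
    have h4 : cj (v j) = ∑ i, cj (u i) * G⁻¹ j i := by
      rw [hv j]
      simp only [cj, map_sum, map_mul]
      refine Finset.sum_congr rfl fun i _ => ?_
      have := hG.inv.1.apply j i
      simp only [RCLike.star_def] at this
      rw [this]
    rw [h4, Finset.mul_sum]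
    refine Finset.sum_congr rfl fun i _ => ?_
    simp only [cj, Complex.conj_conj]
    ring
  rw [h1, h2]
  exact C3.qf_cs hG.inv.posSemidef _ _

lemma dzb_real_eq' (f : Cm n → ℝ) (z : Cm n) (hf : DifferentiableAt ℝ f z) (i : Fin n) :
    dzb i (fun y => ((f y : ℝ) : ℂ)) z = cj (dz i (fun y => ((f y : ℝ) : ℂ)) z) := by
  unfold dz dzb cj
  rw [fderiv_ofReal_apply hf, fderiv_ofReal_apply hf]
  simp only [map_div₀, map_sub, map_mul, Complex.conj_ofReal, Complex.conj_I, map_ofNat]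
  ring

variable {X : Type*} [TopologicalSpace X] [ChartedSpace (Cm n) X]

/-- `gradE g ρ ρ = |∂ρ|²_g` as the Hermitian form of `g⁻¹` -/
lemma gradE_eq_qf {g : Chart n X → Cm n → Matrix (Fin n) (Fin n) ℂ} {ρ : X → ℝ} {e : Chart n X}
    {z : Cm n} (hρ : DifferentiableAt ℝ (fun y => ρ (e.symm y)) z) :
    gradE g ρ ρ e z = (C3.qf (g e z)⁻¹ (fun i => dz i (fun y => ((ρ (e.symm y) : ℝ) : ℂ)) z)
      (fun i => dz i (fun y => ((ρ (e.symm y) : ℝ) : ℂ)) z)).re := by
  unfold gradE
  rw [C3.trace_eq_sum]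
  unfold C3.qf dd
  congr 1
  refine Finset.sum_congr rfl fun i _ => Finset.sum_congr rfl fun j _ => ?_
  simp only [Matrix.of_apply]
  rw [dzb_real_eq' (fun y => ρ (e.symm y)) z hρ j]
  ring

/-- `|dρ(v)|² ≤ 4 |∂ρ|²_g |v|²_g` -/
theorem fderiv_sq_le {g : Chart n X → Cm n → Matrix (Fin n) (Fin n) ℂ} {ρ : X → ℝ} {e : Chart n X}
    {z : Cm n} (hg : (g e z).PosDef) (hρ : DifferentiableAt ℝ (fun y => ρ (e.symm y)) z)
    (v : Cm n) : (fderiv ℝ (fun y => ρ (e.symm y)) z v) ^ 2 ≤
      4 * (gradE g ρ ρ e z * (quad (g e z) v).re) := by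
  rw [fderiv_eq_dz hρ, gradE_eq_qf hρ, mul_pow]
  have := cs_pair hg (fun i => dz i (fun y => ((ρ (e.symm y) : ℝ) : ℂ)) z) v
  linarith

end Vale.Agent.P272.K.AMP.NF.H420
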