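import Vale.Agent.P272.K.AMP.NF.Defs
import Vale.Agent.P272.K.AMP.NF.H420.Grad
import Vale.Agent.P272.K.T4.FibE
import Vale.Agent.P272.K.T4.FibF
import Vale.Agent.P272.K.T4.Mom
import Vale.Agent.P272.K.T4.L5GlobA

/-!
# N4: the weighted `L²` bound of `tr_g h`
-/

open scoped Manifold ContDiff ComplexOrder Topology Matrix
open Complex Set Filter MeasureTheory

set_option linter.all false

noncomputable section

namespace Vale.Agent.P272.K.AMP.NF.H420

open INT (IsDensity intX)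
open T4

variable {n : ℕ}

section
variable {X : Type*} [TopologicalSpace X] [ChartedSpace (Cm n) X]
  {g h : Chart n X → Cm n → Matrix (Fin n) (Fin n) ℂ} {e : Chart n X} {z : Cm n}
  {F G : Chart n X → Cm n → Cm n → ℝ} {χ : ℝ → ℝ} {ρ : X → ℝ}

/-- comparison of fibre averages: only the vectors with `|w|_g < 1` matter -/
lemma Eg_mono' (hχ : Wt χ) (hd : 0 ≤ (g e z).det.re) (hF : EgInt χ g F e z) (hG : EgInt χ g G e z)
    (h : ∀ w, (quad (g e z) w).re < 1 → F e z w ≤ G e z w) : Eg χ g F e z ≤ Eg χ g G e z := by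
  unfold Eg
  refine integral_mono hF hG fun w => ?_
  rcases lt_or_ge (quad (g e z) w).re 1 with h1 | h1
  · exact mul_le_mul_of_nonneg_right (mul_le_mul_of_nonneg_right (h w h1) (hχ.nonneg _)) hd
  · simp only [hχ.zero _ h1, mul_zero, zero_mul, le_refl]

lemma EgInt.const_mul (c : ℝ) (hF : EgInt χ g F e z) :
    EgInt χ g (fun e z w => c * F e z w) e z := by
  unfold EgInt at *
  refine (Integrable.const_mul hF c).congr (Eventually.of_forall fun w => ?_)
  simp only; ring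

lemma EgInt.add (hF : EgInt χ g F e z) (hG : EgInt χ g G e z) :
    EgInt χ g (fun e z w => F e z w + G e z w) e z := by
  unfold EgInt at *
  refine (Integrable.add hF hG).congr (Eventually.of_forall fun w => ?_)
  simp only [Pi.add_apply]; ring

/-- the product of a function on `X` and a function on the tangent bundle -/
def lm (ρ : X → ℝ) (F : Chart n X → Cm n → Cm n → ℝ) : Chart n X → Cm n → Cm n → ℝ :=
  fun e z w => ρ (e.symm z) * F e z w

lemma lm_smTFun (hρ : SmoothFn (n := n) ρ) (hF : SmTFun F) : SmTFun (lm ρ F) where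
  change e e' x w hx hx' := by
    unfold lm
    rw [hx.left_inv, hx'.left_inv, hF.change e e' x w hx hx']
  smooth e x w hx := by
    have h1 : ContDiffAt ℝ ∞ (fun q : Cm n × Cm n => ρ (e.symm q.1)) (e x, w) :=
      ContDiffAt.comp (f := fun q : Cm n × Cm n => q.1) (g := fun y => ρ (e.symm y)) (e x, w)
        (hρ e x hx) contDiffAt_fst
    exact h1.mul (hF.smooth e x w hx)

/-- the derivative along the spray of a product -/
lemma Yd_lm (hρ : SmoothFn (n := n) ρ) (hF : SmTFun F) (b : ℂ) {x : X} (hx : At e x) (w : Cm n) :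
    Yd g b (lm ρ F) e (e x) w = ρ x * Yd g b F e (e x) w +
      F e (e x) w * fderiv ℝ (fun y => ρ (e.symm y)) (e x) (b • w) := by
  have h0 : DifferentiableAt ℝ (fun y => ρ (e.symm y)) (e x) :=
    (hρ e x hx).differentiableAt (by simp)
  have h1 : HasFDerivAt (fun q : Cm n × Cm n => ρ (e.symm q.1))
      ((fderiv ℝ (fun y => ρ (e.symm y)) (e x)).comp (ContinuousLinearMap.fst ℝ (Cm n) (Cm n)))
      (e x, w) :=
    HasFDerivAt.comp (f := fun q : Cm n × Cm n => q.1) (g := fun y => ρ (e.symm y)) (e x, w)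
      h0.hasFDerivAt hasFDerivAt_fst
  have h2 := ((hF.smooth e x w hx).differentiableAt (by simp)).hasFDerivAt
  have h3 : HasFDerivAt (fun p : Cm n × Cm n => lm ρ F e p.1 p.2) _ (e x, w) := h1.mul h2
  unfold Yd
  rw [h3.fderiv]
  simp only [ContinuousLinearMap.add_apply, ContinuousLinearMap.smul_apply,
    ContinuousLinearMap.comp_apply, smul_eq_mul, ContinuousLinearMap.coe_fst', spray, hx.left_inv]

lemma Eg_lm {x : X} (hx : At e x) : Eg χ g (lm ρ F) e (e x) = ρ x * Eg χ g F e (e x) := by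
  unfold Eg lm
  rw [hx.left_inv, ← integral_const_mul]
  congr 1; funext w; ring

end

section
variable {X : Type*} [TopologicalSpace X] [ChartedSpace (Cm n) X]
  [IsManifold 𝓘(ℂ, Cm n) ω X] {g h : Chart n X → Cm n → Matrix (Fin n) (Fin n) ℂ}
  {e : Chart n X} {x : X}

/-- `|w|_h² ≤ (tr_g h) |w|_g²` -/
lemma nq_le (hg : IsHermitian g) (hh : IsHermitian h) (hx : At e x) (w : Cm n) :
    nq h e (e x) w ≤ Tr g h e (e x) * (quad (g e (e x)) w).re := by
  have h1 := C2.trace_smul_sub_posSemidef (hg.posDef e x hx) (hh.posDef e x hx).posSemidef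
  have h2 := quad_nonneg h1 w
  have h3 : quad (((g e (e x))⁻¹ * h e (e x)).trace • g e (e x) - h e (e x)) w =
      ((g e (e x))⁻¹ * h e (e x)).trace * quad (g e (e x)) w - quad (h e (e x)) w := by
    unfold quad
    rw [Finset.mul_sum, ← Finset.sum_sub_distrib]
    refine Finset.sum_congr rfl fun i _ => ?_
    rw [Finset.mul_sum, ← Finset.sum_sub_distrib]
    refine Finset.sum_congr rfl fun j _ => ?_
    simp only [Matrix.sub_apply, Matrix.smul_apply, smul_eq_mul]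
    ring
  have h4 : ((g e (e x))⁻¹ * h e (e x)).trace =
      ((((g e (e x))⁻¹ * h e (e x)).trace.re : ℝ) : ℂ) :=
    (C2.trace_re_eq (hg.posDef e x hx) (hh.posDef e x hx)).symm
  rw [h3, h4, Complex.sub_re, Complex.re_ofReal_mul] at h2
  unfold nq Tr
  linarith

lemma Tr_nonneg (hg : IsHermitian g) (hh : IsHermitian h) (hx : At e x) :
    0 ≤ Tr g h e (e x) :=
  trace_mul_nonneg_re (hg.posDef e x hx).inv.posSemidef (hh.posDef e x hx).posSemidef

end

section
variable {X : Type} [TopologicalSpace X] [ChartedSpace (Cm n) X]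
    [IsManifold 𝓘(ℂ, Cm n) ω X] [T2Space X] [CompactSpace X]

/-- **N4** -/
theorem n4 (hN2 : N2 n X) : N4 n X := by
  intro h hh hneg hCo
  obtain ⟨χ, hχ⟩ := exists_wt
  obtain ⟨c, C₀, F₁, F₂, hc, hC₀, hF₁, hF₂, hW₁, hW₂, hB₁, hB₂, hco⟩ := hCo
  obtain ⟨c₀, C₁, hc₀, hC₁, hmom⟩ := mom n X χ hχ
  have hε : 0 < c₀ / (8 * (c + 1)) := by positivity
  obtain ⟨Cε, hCε, hl5⟩ := hN2 χ hχ h hh hneg _ hε
  set A : ℝ := C₀ * C₁ + c * Cε + 2 * C₀ ^ 2 + 16 * C₀ ^ 2 * C₁ with hA
  have hA0 : 0 ≤ A := by positivity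
  refine ⟨χ, 8 / c₀ * A, hχ, by positivity, fun g hg hric ρ hρ hρ0 => ?_⟩
  have hgH := hg.toIsHermitian
  have hdet : ∀ e x, At e x → 0 < (g e (e x)).det.re := fun e x hx =>
    (Complex.lt_def.1 (hgH.posDef e x hx).det_pos).1
  have hcρ := INT.SmoothFn.continuous hρ
  have hgrs : SmoothFn (n := n) (gradX g ρ ρ) := smoothFn_gradX hgH hρ hρ
  have hcgr := INT.SmoothFn.continuous hgrs
  -- the functions involved
  have sN : SmTFun fun e z w => nq h e z w ^ 2 := (nq_smTFun hh).pow 2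
  have sD : SmTFun (Dq h) := Dq_smTFun hh
  have sL₁ : SmTFun (lm ρ F₁) := lm_smTFun hρ hF₁
  have sL₂ : SmTFun (lm ρ F₂) := lm_smTFun hρ hF₂
  have sY₁ : SmTFun (Yd g 1 (lm ρ F₁)) := Yd_smTFun hgH sL₁ 1
  have sY₂ : SmTFun (Yd g Complex.I (lm ρ F₂)) := Yd_smTFun hgH sL₂ Complex.I
  have sP : SmTFun (fun e z w => Pq g h e z w + Rq h e z w) := (Pq_smTFun hgH hh).add (Rq_smTFun hh)
  have s1 : SmTFun (fun (_ : Chart n X) (_ _ : Cm n) => (1 : ℝ)) := SmTFun.const 1
  have I : ∀ {F : Chart n X → Cm n → Cm n → ℝ}, SmTFun F → ∀ e x, At e x → EgInt χ g F e (e x) :=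
    fun hF e x hx => (dens n X χ hχ g hgH _ hF.cTFun).1 e x hx
  have Dn : ∀ {F : Chart n X → Cm n → Cm n → ℝ}, SmTFun F →
      IsDensity fun e z => Eg χ g F e z * dt g e z := fun hF => (dens n X χ hχ g hgH _ hF.cTFun).2
  have hgr0 : ∀ e x, At e x → 0 ≤ gradE g ρ ρ e (e x) := by
    intro e x hx
    rw [gradE_eq_qf ((hρ e x hx).differentiableAt (by simp))]
    exact C3.qf_nonneg (hgH.posDef e x hx).inv.posSemidef _
  -- pointwise inequality on the tangent bundle
  have hpt : ∀ e x w, At e x → (quad (g e (e x)) w).re < 1 →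
      (ρ x / 4) * nq h e (e x) w ^ 2 ≤
      C₀ * ρ x * 1 + (c * ρ x * Dq h e (e x) w + (Yd g 1 (lm ρ F₁) e (e x) w +
        (Yd g Complex.I (lm ρ F₂) e (e x) w +
        (2 * C₀ ^ 2 * ρ x * (Pq g h e (e x) w + Rq h e (e x) w) +
          16 * C₀ ^ 2 * (gradE g ρ ρ e (e x) / ρ x * Tr g h e (e x)) * 1)))) := by
    intro e x w hx hw1
    have h1 := hco e x w hx
    have hN := nq_nonneg hh hx w
    have hP := Pq_nonneg g hh hx w
    have hR := Rq_nonneg hneg hx w
    have hr := hρ0 x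
    have hgd := hgr0 e x hx
    have hT := Tr_nonneg hgH hh hx
    have h2 : ∀ b : ℂ, ‖b‖ = 1 → nq h e (e x) (-(b • P1.dGam (g e) (h e) (e x) w)) =
        Pq g h e (e x) w := by
      intro b hb
      have : -(b • P1.dGam (g e) (h e) (e x) w) = (-b) • P1.dGam (g e) (h e) (e x) w := by
        rw [neg_smul]
      unfold nq Pq
      rw [this, quad_csmul, norm_neg, hb]
      simp
    have h3 := (abs_le.1 (hW₁ e x w (-((1 : ℂ) • P1.dGam (g e) (h e) (e x) w)) hx)).2
    have h4 := (abs_le.1 (hW₂ e x w (-(Complex.I • P1.dGam (g e) (h e) (e x) w)) hx)).2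
    rw [h2 1 (by simp)] at h3
    rw [h2 Complex.I (by simp)] at h4
    rw [Yd_sub (g := g) F₁, Yd_sub (g := g) F₂] at h1
    -- the derivative of `ρ`
    have hdρ : ∀ b : ℂ, ‖b‖ = 1 → |fderiv ℝ (fun y => ρ (e.symm y)) (e x) (b • w)| ≤
        2 * √(gradE g ρ ρ e (e x)) := by
      intro b hb
      have k1 := fderiv_sq_le (hgH.posDef e x hx) ((hρ e x hx).differentiableAt (by simp)) (b • w)
      rw [quad_csmul, hb] at k1
      simp only [one_pow, Complex.ofReal_one, one_mul] at k1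
      have hq0 : 0 ≤ (quad (g e (e x)) w).re := quad_nonneg (hgH.posDef e x hx).posSemidef w
      have k2 : (fderiv ℝ (fun y => ρ (e.symm y)) (e x) (b • w)) ^ 2 ≤
          (2 * √(gradE g ρ ρ e (e x))) ^ 2 := by
        rw [mul_pow, Real.sq_sqrt hgd]
        have : gradE g ρ ρ e (e x) * (quad (g e (e x)) w).re ≤ gradE g ρ ρ e (e x) * 1 :=
          mul_le_mul_of_nonneg_left hw1.le hgd
        nlinarith
      exact abs_le_of_sq_le_sq k2 (by positivity)
    -- the bound of `F dρ`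
    have hFρ : ∀ (F : ℝ) (d : ℝ), |F| ≤ C₀ * nq h e (e x) w * √(nq h e (e x) w) →
        |d| ≤ 2 * √(gradE g ρ ρ e (e x)) →
        -(F * d) ≤ (ρ x / 8) * nq h e (e x) w ^ 2 +
          8 * C₀ ^ 2 * (gradE g ρ ρ e (e x) / ρ x * Tr g h e (e x)) := by
      intro F d hF hd
      have k1 : -(F * d) ≤ (C₀ * nq h e (e x) w * √(nq h e (e x) w)) *
          (2 * √(gradE g ρ ρ e (e x))) := by
        refine (neg_le_abs _).trans ?_
        rw [abs_mul]
        exact mul_le_mul hF hd (abs_nonneg _) (by positivity)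
      have k2 : nq h e (e x) w ≤ Tr g h e (e x) := by
        refine (nq_le hgH hh hx w).trans ?_
        calc Tr g h e (e x) * (quad (g e (e x)) w).re ≤ Tr g h e (e x) * 1 :=
              mul_le_mul_of_nonneg_left hw1.le hT
          _ = _ := mul_one _
      set N := nq h e (e x) w
      set D := gradE g ρ ρ e (e x)
      have k3 : √N ^ 2 = N := Real.sq_sqrt hN
      have k4 : √D ^ 2 = D := Real.sq_sqrt hgd
      have k5 : (C₀ * N * √N) * (2 * √D) ≤ (ρ x / 8) * N ^ 2 + 8 * C₀ ^ 2 * (D / ρ x * N) := by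
        have k6 : 0 ≤ (ρ x * N / 4 - 2 * C₀ * (√N * √D)) ^ 2 := sq_nonneg _
        have k7 : (ρ x * N / 4 - 2 * C₀ * (√N * √D)) ^ 2 =
            (ρ x / 2) * ((ρ x / 8) * N ^ 2 + 8 * C₀ ^ 2 * (D / ρ x * N) -
              (C₀ * N * √N) * (2 * √D)) := by
          have : (ρ x * N / 4 - 2 * C₀ * (√N * √D)) ^ 2 = ρ x ^ 2 * N ^ 2 / 16 -
              ρ x * N * C₀ * (√N * √D) + 4 * C₀ ^ 2 * (√N ^ 2 * √D ^ 2) := by ring
          rw [this, k3, k4]
          field_simp
          ring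
        rw [k7] at k6
        have := (mul_nonneg_iff_of_pos_left (by positivity : 0 < ρ x / 2)).1 k6
        linarith
      have k8 : D / ρ x * N ≤ D / ρ x * Tr g h e (e x) :=
        mul_le_mul_of_nonneg_left k2 (by positivity)
      have k9 := mul_le_mul_of_nonneg_left k8 (by positivity : 0 ≤ 8 * C₀ ^ 2)
      linarith
    have m1 := hFρ _ _ (hB₁ e x w hx) (hdρ 1 (by simp))
    have m2 := hFρ _ _ (hB₂ e x w hx) (hdρ Complex.I (by simp))
    rw [Yd_lm hρ hF₁ 1 hx w, Yd_lm hρ hF₂ Complex.I hx w]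
    set N := nq h e (e x) w
    set P := Pq g h e (e x) w
    have h5 : √P ^ 2 = P := Real.sq_sqrt hP
    have h6 : 2 * (C₀ * N * √P) ≤ (1 / 2) * N ^ 2 + 2 * C₀ ^ 2 * P := by
      nlinarith [sq_nonneg (N - 2 * C₀ * √P)]
    have h7 : 0 ≤ 2 * C₀ ^ 2 * Rq h e (e x) w := by positivity
    have h8 : (1 / 2) * N ^ 2 ≤ C₀ + c * Dq h e (e x) w + Yd g 1 F₁ e (e x) w +
        Yd g Complex.I F₂ e (e x) w + 2 * C₀ ^ 2 * (P + Rq h e (e x) w) := by nlinarith
    have h9 := mul_le_mul_of_nonneg_left h8 hr.le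
    linarith
  -- pointwise inequality on X
  have hX : ∀ e x, At e x → (c₀ / 4) * (ρ x * (Tr g h e (e x) ^ 2 * dt g e (e x))) ≤
      C₀ * C₁ * (ρ x * (Tr g h e (e x) ^ 0 * dt g e (e x))) +
        (c * (ρ x * (Eg χ g (Dq h) e (e x) * dt g e (e x))) +
        (Eg χ g (Yd g 1 (lm ρ F₁)) e (e x) * dt g e (e x) +
        (Eg χ g (Yd g Complex.I (lm ρ F₂)) e (e x) * dt g e (e x) +
        (2 * C₀ ^ 2 * (ρ x * (Eg χ g (fun e z w => Pq g h e z w + Rq h e z w) e (e x) *
          dt g e (e x))) + 16 * C₀ ^ 2 * C₁ * (gradE g ρ ρ e (e x) / ρ x *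
            (Tr g h e (e x) * dt g e (e x))))))) := by
    intro e x hx
    obtain ⟨m1, m2⟩ := hmom h hh g hgH e x hx
    have hr := hρ0 x
    have hgd := hgr0 e x hx
    have hT := Tr_nonneg hgH hh hx
    set K : ℝ := gradE g ρ ρ e (e x) / ρ x * Tr g h e (e x) with hK
    have hK0 : 0 ≤ K := by positivity
    have i1 := I s1 e x hx
    have i1a := EgInt.const_mul (C₀ * ρ x) i1
    have i1b := EgInt.const_mul (16 * C₀ ^ 2 * K) i1
    have iD := EgInt.const_mul (c * ρ x) (I sD e x hx)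
    have iP := EgInt.const_mul (2 * C₀ ^ 2 * ρ x) (I sP e x hx)
    have iY₂ := I sY₂ e x hx
    have iY₁ := I sY₁ e x hx
    have iN := EgInt.const_mul (ρ x / 4) (I sN e x hx)
    have k1 : Eg χ g (fun e z w => (ρ x / 4) * nq h e z w ^ 2) e (e x) ≤
        Eg χ g (fun e z w => C₀ * ρ x * 1 + (c * ρ x * Dq h e z w + (Yd g 1 (lm ρ F₁) e z w +
          (Yd g Complex.I (lm ρ F₂) e z w + (2 * C₀ ^ 2 * ρ x * (Pq g h e z w + Rq h e z w) +
            16 * C₀ ^ 2 * K * 1))))) e (e x) :=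
      Eg_mono' hχ (hdet e x hx).le iN
        (EgInt.add i1a (EgInt.add iD (EgInt.add iY₁ (EgInt.add iY₂ (EgInt.add iP i1b)))))
        fun w hw => hpt e x w hx hw
    have k2 : Eg χ g (fun e z w => (ρ x / 4) * nq h e z w ^ 2) e (e x) =
        (ρ x / 4) * Eg χ g (fun e z w => nq h e z w ^ 2) e (e x) :=
      Eg_const_mul (F := fun e z w => nq h e z w ^ 2) _
    have k3 : Eg χ g (fun e z w => C₀ * ρ x * 1 + (c * ρ x * Dq h e z w + (Yd g 1 (lm ρ F₁) e z w +
          (Yd g Complex.I (lm ρ F₂) e z w + (2 * C₀ ^ 2 * ρ x * (Pq g h e z w + Rq h e z w) +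
            16 * C₀ ^ 2 * K * 1))))) e (e x) =
        C₀ * ρ x * Eg χ g (fun _ _ _ => 1) e (e x) + (c * ρ x * Eg χ g (Dq h) e (e x) +
          (Eg χ g (Yd g 1 (lm ρ F₁)) e (e x) + (Eg χ g (Yd g Complex.I (lm ρ F₂)) e (e x) +
            (2 * C₀ ^ 2 * ρ x * Eg χ g (fun e z w => Pq g h e z w + Rq h e z w) e (e x) +
              16 * C₀ ^ 2 * K * Eg χ g (fun _ _ _ => 1) e (e x))))) := by
      rw [Eg_add i1a (EgInt.add iD (EgInt.add iY₁ (EgInt.add iY₂ (EgInt.add iP i1b)))),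
        Eg_add iD (EgInt.add iY₁ (EgInt.add iY₂ (EgInt.add iP i1b))),
        Eg_add iY₁ (EgInt.add iY₂ (EgInt.add iP i1b)), Eg_add iY₂ (EgInt.add iP i1b),
        Eg_add iP i1b, Eg_const_mul (F := fun _ _ _ => (1 : ℝ)), Eg_const_mul (F := Dq h),
        Eg_const_mul (F := fun e z w => Pq g h e z w + Rq h e z w),
        Eg_const_mul (F := fun _ _ _ => (1 : ℝ))]
    rw [k2, k3] at k1
    have hd' : 0 ≤ dt g e (e x) := (hdet e x hx).le
    have k4 : (c₀ / 4) * (ρ x * Tr g h e (e x) ^ 2) ≤ C₀ * C₁ * ρ x +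
        (c * ρ x * Eg χ g (Dq h) e (e x) +
          (Eg χ g (Yd g 1 (lm ρ F₁)) e (e x) + (Eg χ g (Yd g Complex.I (lm ρ F₂)) e (e x) +
            (2 * C₀ ^ 2 * ρ x * Eg χ g (fun e z w => Pq g h e z w + Rq h e z w) e (e x) +
              16 * C₀ ^ 2 * K * C₁)))) := by
      have n1 := mul_le_mul_of_nonneg_left m2 (by positivity : 0 ≤ C₀ * ρ x)
      have n2 := mul_le_mul_of_nonneg_left m2 (by positivity : 0 ≤ 16 * C₀ ^ 2 * K)
      have n3 := mul_le_mul_of_nonneg_left m1 (by positivity : 0 ≤ ρ x / 4)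
      linarith
    have k5 := mul_le_mul_of_nonneg_right k4 hd'
    rw [hK] at k5
    rw [pow_zero]
    linarith
  -- the densities
  have d0 : IsDensity fun e z => dt g e z := by
    have := isDensity_trace (F := fun _ => (1 : ℝ)) hgH hh continuous_const
    simpa [dt] using this
  have dTk : ∀ k : ℕ, IsDensity fun e z => ρ (e.symm z) * (Tr g h e z ^ k * dt g e z) := fun k =>
    (isDensity_trace (F := fun T => T ^ k) hgH hh (by fun_prop)).smul hcρ
  have dD : IsDensity fun e z => ρ (e.symm z) * (Eg χ g (Dq h) e z * dt g e z) := (Dn sD).smul hcρ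
  have dP : IsDensity fun e z => ρ (e.symm z) *
      (Eg χ g (fun e z w => Pq g h e z w + Rq h e z w) e z * dt g e z) := (Dn sP).smul hcρ
  have dY₁ := Dn sY₁
  have dY₂ := Dn sY₂
  have hcq : Continuous fun x => gradX g ρ ρ x / ρ x := hcgr.div hcρ fun x => (hρ0 x).ne'
  have dG' : IsDensity fun e z => (gradX g ρ ρ (e.symm z) / ρ (e.symm z)) *
      (Tr g h e z * dt g e z) :=
    (isDensity_trace (F := fun T => T) hgH hh continuous_id).smul hcq
  have eG : IG g h ρ = intX fun e z => (gradX g ρ ρ (e.symm z) / ρ (e.symm z)) *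
      (Tr g h e z * dt g e z) := by
    refine INT.intX_congr fun e x hx => ?_
    have := gradX_eq hgH hρ hρ hx
    rw [hx.left_inv, this]
  have e1 : (c₀ / 4) * IT 2 g h ρ ≤
      C₀ * C₁ * IT 0 g h ρ +
        (c * intX (fun e z => ρ (e.symm z) * (Eg χ g (Dq h) e z * dt g e z)) +
        (intX (fun e z => Eg χ g (Yd g 1 (lm ρ F₁)) e z * dt g e z) +
        (intX (fun e z => Eg χ g (Yd g Complex.I (lm ρ F₂)) e z * dt g e z) +
        (2 * C₀ ^ 2 * IP χ g h ρ + 16 * C₀ ^ 2 * C₁ * IG g h ρ)))) := by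
    rw [eG]
    unfold IT IP
    have a1 := dG'.const_mul (16 * C₀ ^ 2 * C₁)
    have a2 := dP.const_mul (2 * C₀ ^ 2)
    have a3 := dD.const_mul c
    have a4 := (dTk 0).const_mul (C₀ * C₁)
    rw [← INT.intX_const_mul, ← INT.intX_const_mul, ← INT.intX_const_mul, ← INT.intX_const_mul,
      ← INT.intX_const_mul, ← INT.intX_add a2 a1, ← INT.intX_add dY₂ (a2.add a1),
      ← INT.intX_add dY₁ (dY₂.add (a2.add a1)),
      ← INT.intX_add a3 (dY₁.add (dY₂.add (a2.add a1))),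
      ← INT.intX_add a4 (a3.add (dY₁.add (dY₂.add (a2.add a1))))]
    refine INT.intX_mono ((dTk 2).const_mul _)
      (a4.add (a3.add (dY₁.add (dY₂.add (a2.add a1))))) fun e x hx => ?_
    have h1 := hX e x hx
    have h2 := gradX_eq hgH hρ hρ hx
    simp only [hx.left_inv, h2]
    exact h1
  rw [l1 n X χ hχ g hg _ sL₁ 1, l1 n X χ hχ g hg _ sL₂ Complex.I] at e1
  have e3 := hl5 g hg hric ρ hρ hρ0
  -- nonnegativity of all the terms
  have p2 : 0 ≤ IT 2 g h ρ := INT.intX_nonneg fun e x hx => mul_nonneg (hρ0 _).le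
    (mul_nonneg (sq_nonneg _) (hdet e x hx).le)
  have p0 : 0 ≤ IT 0 g h ρ := INT.intX_nonneg fun e x hx => mul_nonneg (hρ0 _).le
    (mul_nonneg (by positivity) (hdet e x hx).le)
  have pM : 0 ≤ IM g h ρ := INT.intX_nonneg fun e x hx => mul_nonneg (hρ0 _).le
    (mul_nonneg (Ml_nonneg hgH hh hric hx) (hdet e x hx).le)
  have pP : 0 ≤ IP χ g h ρ := by
    refine INT.intX_nonneg fun e x hx => mul_nonneg (hρ0 _).le (mul_nonneg ?_ (hdet e x hx).le)
    unfold Eg
    exact integral_nonneg fun w => mul_nonneg (mul_nonneg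
      (add_nonneg (Pq_nonneg g hh hx w) (Rq_nonneg hneg hx w)) (hχ.nonneg _)) (hdet e x hx).le
  have pG : 0 ≤ IG g h ρ := by
    refine INT.intX_nonneg fun e x hx => mul_nonneg (div_nonneg (hgr0 e x hx) (hρ0 _).le)
      (mul_nonneg (Tr_nonneg hgH hh hx) (hdet e x hx).le)
  set S := IT 0 g h ρ + IP χ g h ρ + IM g h ρ + IG g h ρ with hS
  have e4 : c * (c₀ / (8 * (c + 1)) * IT 2 g h ρ) ≤ (c₀ / 8) * IT 2 g h ρ := by
    have : c * (c₀ / (8 * (c + 1))) ≤ c₀ / 8 := by
      rw [← mul_div_assoc, div_le_div_iff₀ (by positivity) (by norm_num)]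
      nlinarith
    nlinarith
  have e5 := mul_le_mul_of_nonneg_left e3 hc
  have q1 : C₀ * C₁ * IT 0 g h ρ ≤ C₀ * C₁ * S :=
    mul_le_mul_of_nonneg_left (by rw [hS]; linarith) (by positivity)
  have q2 : 2 * C₀ ^ 2 * IP χ g h ρ ≤ 2 * C₀ ^ 2 * S :=
    mul_le_mul_of_nonneg_left (by rw [hS]; linarith) (by positivity)
  have q3 : 16 * C₀ ^ 2 * C₁ * IG g h ρ ≤ 16 * C₀ ^ 2 * C₁ * S :=
    mul_le_mul_of_nonneg_left (by rw [hS]; linarith) (by positivity)
  have e6 : (c₀ / 8) * IT 2 g h ρ ≤ A * S := by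
    rw [hA]
    have : c * (c₀ / (8 * (c + 1)) * IT 2 g h ρ + Cε * S) =
        c * (c₀ / (8 * (c + 1)) * IT 2 g h ρ) + c * Cε * S := by ring
    rw [this] at e5
    linarith
  calc IT 2 g h ρ = 8 / c₀ * ((c₀ / 8) * IT 2 g h ρ) := by field_simp
    _ ≤ 8 / c₀ * (A * S) := mul_le_mul_of_nonneg_left e6 (by positivity)
    _ = _ := by ring

end

end Vale.Agent.P272.K.AMP.NF.H420
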